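import Vale.Agent.Lib.P338.F.Little

/-!
If a multitape Turing machine multiplies `n`-bit integers in time `o(n log n)`, then some multitape Turing machine
transposes binary matrices of every side `m` in time `o(m² log m)`.
-/

namespace Vale.Agent.Results.P338.A_little

open Filter Topology Vale.Agent.Lib.P338 Vale.Agent.Lib.P338.F

theorem result (A : MTM) (τ : ℕ → ℕ) (hA : Multiplies A τ)
    (hτ : Tendsto (fun n : ℕ => (τ n : ℝ) / (n * Real.log n)) atTop (𝓝 0)) :
    ∃ (B : MTM) (σ : ℕ → ℕ), TransposesAll B σ ∧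
      Tendsto (fun m : ℕ => (σ m : ℝ) / ((m : ℝ) ^ 2 * Real.log m)) atTop (𝓝 0) :=
  little A τ hA hτ

end Vale.Agent.Results.P338.A_little
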