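import Vale.Agent.Lib.P338.F.Corol

/-!
Matrix transposition of every side `m` reduces to one integer multiplication of size about `m ^ 2`, and the
expected lower bound for matrix transposition implies the expected lower bound for integer multiplication.
-/

namespace Vale.Agent.Results.P338.B_regular

open Vale.Agent.Lib.P338 Vale.Agent.Lib.P338.F

theorem result :
    (∀ (A : MTM) (τ : ℕ → ℕ), Multiplies A τ → (∀ a b : ℕ, 1 ≤ a → a ≤ b → τ a * b ≤ τ b * a) →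
      ∃ (B : MTM) (σ : ℕ → ℕ) (C : ℕ), TransposesAll B σ ∧ ∀ m : ℕ, 1 ≤ m →
        σ m ≤ C * (τ (2 ^ (2 * Nat.clog 2 m + 19)) + m * m * (Nat.clog 2 (Nat.clog 2 m + 5) + 1))) ∧
    ((∀ (B : MTM) (σ : ℕ → ℕ), TransposesAll B σ →
        ∃ c : ℝ, 0 < c ∧ ∃ N : ℕ, ∀ m : ℕ, N ≤ m → c * ((m : ℝ) ^ 2 * Real.log m) ≤ σ m) →
      ∀ (A : MTM) (τ : ℕ → ℕ), Multiplies A τ → (∀ a b : ℕ, 1 ≤ a → a ≤ b → τ a * b ≤ τ b * a) →
        ∃ c : ℝ, 0 < c ∧ ∃ N : ℕ, ∀ n : ℕ, N ≤ n → c * ((n : ℝ) * Real.log n) ≤ τ n) :=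
  ⟨fun A τ hA hr => reduction_reg A τ hA hr, fun H A τ hA hr => q1_of_hard H A τ hA hr⟩

end Vale.Agent.Results.P338.B_regular
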