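import Vale.Agent.Lib.P338.F.Final

/-!
Matrix transposition of every side `m` reduces to one integer multiplication of size about `m ^ 2` together with
about `m ^ 2 / log m` multiplications of size about `log m`, for arbitrary multiplying machines.
-/

namespace Vale.Agent.Results.P338.C_two

open Vale.Agent.Lib.P338 Vale.Agent.Lib.P338.F

theorem result (A A0 : MTM) (τ τ0 : ℕ → ℕ) (hA : Multiplies A τ) (hA0 : Multiplies A0 τ0) :
    ∃ (B : MTM) (σ : ℕ → ℕ) (C : ℕ), TransposesAll B σ ∧ ∀ m : ℕ, 1 ≤ m →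
      2 ^ (Nat.clog 2 (Nat.clog 2 m + 5) + 3) * σ m ≤
        C * (2 ^ (Nat.clog 2 (Nat.clog 2 m + 5) + 3) *
            (τ (2 ^ (2 * Nat.clog 2 m + 19)) + m * m * (Nat.clog 2 (Nat.clog 2 m + 5) + 1)) +
          m * m * τ0 (2 ^ (Nat.clog 2 (Nat.clog 2 m + 5) + 3))) :=
  reduction2 A A0 τ τ0 hA hA0

end Vale.Agent.Results.P338.C_two
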