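import Vale.Agent.Lib.P338.F.Corol3

/-!
Matrix transposition of every side `m` reduces to one multiplication of size about `m ^ 2` by an arbitrary multiplier, plus
`O(m ^ 2 (log m) ^ (3 / 4))` further steps; the small products are done by an internal form of the method of Karatsuba,
and no assumption on the multiplier is needed. So the expected lower bound for matrix transposition implies the expected
lower bound for integer multiplication, for every multiplier.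
-/

namespace Vale.Agent.Results.P338.D_self

open Vale.Agent.Lib.P338 Vale.Agent.Lib.P338.F

theorem result :
    (∀ (A : MTM) (τ : ℕ → ℕ), Multiplies A τ →
      ∃ (B : MTM) (σ : ℕ → ℕ) (C : ℝ), 0 ≤ C ∧ TransposesAll B σ ∧ ∀ m : ℕ, 1 ≤ m →
        (σ m : ℝ) ≤ C * ((τ (2 ^ (2 * Nat.clog 2 m + 19)) : ℝ) + (m : ℝ) ^ 2 * ((Nat.clog 2 m + 5 : ℕ) : ℝ) ^ (3 / 4 : ℝ))) ∧
    ((∀ (B : MTM) (σ : ℕ → ℕ), TransposesAll B σ →
        ∃ c : ℝ, 0 < c ∧ ∃ N : ℕ, ∀ a : ℕ, N ≤ a → c * (((2 ^ a : ℕ) : ℝ) ^ 2 * Real.log ((2 ^ a : ℕ) : ℝ)) ≤ σ (2 ^ a)) →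
      ∀ (A : MTM) (τ : ℕ → ℕ), Multiplies A τ →
        (∃ c : ℝ, 0 < c ∧ ∃ N : ℕ, ∀ a : ℕ, N ≤ a →
          c * (((2 ^ (2 * a + 19) : ℕ) : ℝ) * Real.log ((2 ^ (2 * a + 19) : ℕ) : ℝ)) ≤ τ (2 ^ (2 * a + 19))) ∧
        (Monotone τ → ∃ c : ℝ, 0 < c ∧ ∃ N : ℕ, ∀ n : ℕ, N ≤ n → c * ((n : ℝ) * Real.log n) ≤ τ n)) :=
  ⟨fun A τ hA => reduction_main A τ hA, fun H A τ hA => q1_main H A τ hA⟩

end Vale.Agent.Results.P338.D_self
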